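import Vale.Agent.P017.R4.Defs
import Vale.Agent.P017.H185.Fam

/-!
# P017: case III, class groups and finiteness

`K = ℚ(√-2m)`, `m` odd and squarefree: Rédei's condition for `2m` excludes elements of order four
in the class group (all ramified primes divide `2m`), and the two descents apply.
-/

open NumberField

namespace Vale.Agent.P017.R4.H927

open Vale.Agent.P017.R3 (OKc)
open Vale.Agent.P017.H185

universe u

/-- **Rédei's criterion**, `d` even: no element of order four in the class group. -/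
theorem no_order_four_even {K : Type*} [Field K] [NumberField K] {d : ℕ} (q : QF K d)
    (hd2 : 2 ∣ d) (hR : Redei d) :
    ∀ c : ClassGroup (𝓞 K), orderOf c ≠ 4 := by
  intro c hc
  obtain ⟨⟨I₀, hI₀⟩, rfl⟩ := ClassGroup.mk0_surjective c
  have hI₀0 : I₀ ≠ ⊥ := nonZeroDivisors.ne_zero hI₀
  obtain ⟨n₀, hn₀, hIn₀⟩ := q.exists_hasN hI₀0
  have hI0 : I₀ * I₀ ≠ ⊥ := mul_ne_zero hI₀0 hI₀0
  have hpow : (ClassGroup.mk0 ⟨I₀, hI₀⟩) ^ 4 = 1 := by rw [← hc]; exact pow_orderOf_eq_one _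
  have hpow' : ClassGroup.mk0 ⟨(I₀ * I₀) * (I₀ * I₀), mem_nonZeroDivisors_of_ne_zero
      (mul_ne_zero hI0 hI0)⟩ = 1 := by
    rw [← hpow]
    rw [show (4 : ℕ) = 2 + 2 by norm_num, pow_add, sq, ← map_mul, ← map_mul]
    rfl
  obtain ⟨γ, hγ⟩ := ((ClassGroup.mk0_eq_one_iff _).mp hpow').principal
  have hγ' : (I₀ * I₀) * (I₀ * I₀) = Ideal.span {γ} := hγ
  obtain ⟨a, ha, hram, ⟨J, hJJ, x, y, hx, hy, hxy⟩, w, hw, hwn⟩ :=
    q.amb hI0 (hIn₀.mul hIn₀) hγ'
  have had : a ∣ d := by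
    rw [← Nat.prod_primeFactors_of_squarefree ha]
    refine Finset.prod_primes_dvd _ (fun p hp => (Nat.prime_of_mem_primeFactors hp).prime)
      (fun p hp => ?_)
    rcases hram p (Nat.prime_of_mem_primeFactors hp) (Nat.dvd_of_mem_primeFactors hp) with h | h
    · exact h
    · rw [h.1]; exact hd2
  have hn₀Q : (n₀ : ℚ) ≠ 0 := by exact_mod_cast hn₀
  have hnma : q.nm (w * (((n₀ : ℚ)⁻¹ : ℚ) : K)) = a := by
    rw [q.nm_mul, q.nm_rat, ← hwn]
    push_cast
    field_simp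
  have ha1 := hR a had (fun p hp hpd => q.norm_local had hnma hp hpd)
  have hJ0 : J ≠ ⊥ := by
    rintro rfl
    rw [Ideal.bot_mul] at hJJ
    exact ha.ne_zero (by exact_mod_cast Ideal.span_singleton_eq_bot.mp hJJ.symm)
  have hJp : ∃ g : 𝓞 K, J = Ideal.span {g} := by
    rcases ha1 with h | h
    · refine ⟨1, QF.eq_span_of_mul_self one_ne_zero ?_⟩
      rw [hJJ, h]; simp
    · refine ⟨q.t, QF.eq_span_of_mul_self q.t_ne_zero ?_⟩
      rw [hJJ, h, ← sq, q.t_sq, Ideal.span_singleton_neg]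
  obtain ⟨g, hg⟩ := hJp
  have hJ1 : ClassGroup.mk0 ⟨J, mem_nonZeroDivisors_of_ne_zero hJ0⟩ = 1 := by
    rw [ClassGroup.mk0_eq_one_iff]
    exact ⟨⟨g, hg⟩⟩
  have hIJ : ClassGroup.mk0 ⟨I₀ * I₀, mem_nonZeroDivisors_of_ne_zero hI0⟩ =
      ClassGroup.mk0 ⟨J, mem_nonZeroDivisors_of_ne_zero hJ0⟩ := by
    rw [ClassGroup.mk0_eq_mk0_iff]
    exact ⟨x, y, hx, hy, hxy⟩
  have h2 : (ClassGroup.mk0 ⟨I₀, hI₀⟩) ^ 2 = 1 := by
    rw [sq, ← map_mul]
    exact hIJ.trans hJ1
  have := orderOf_dvd_of_pow_eq_one h2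
  rw [hc] at this
  norm_num at this

/-- finiteness for even `d` -/
theorem finite_even {d : ℕ} (hd : Squarefree d) (hd2 : 2 ∣ d) (hok : OKc d) (hR : Redei d)
    (K : Type u) [Field K] [NumberField K] [Algebra.IsQuadraticExtension ℚ K] (θ : K)
    (hθ : θ ^ 2 = -(d : K)) : Finite (X015.baseChange K).toAffine.Point := by
  obtain ⟨q⟩ := exists_QF_of_sqrt hd hθ
  apply q.finite_of_cond (no_order_four_even q hd2 hR)
  · intro h3 h
    have h1 : ((d : ℕ) : ZMod 3) = ((1 : ℕ) : ZMod 3) := by rw [h]; simp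
    have h2 := (ZMod.natCast_eq_natCast_iff _ _ _).mp h1
    have h3' : d % 3 = 1 % 3 := h2
    rcases hok.1 with h5 | h5
    · exact h3 h5
    · omega
  · intro h5 h
    rcases hok.2 with hr | hr | hr
    · exact h5 hr
    · have h1 : ((d : ℕ) : ZMod 5) = ((2 : ℕ) : ZMod 5) := by
        rw [ZMod.natCast_eq_natCast_iff]
        show d % 5 = 2 % 5
        omega
      rw [h1] at h
      revert h
      decide
    · have h1 : ((d : ℕ) : ZMod 5) = ((3 : ℕ) : ZMod 5) := by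
        rw [ZMod.natCast_eq_natCast_iff]
        show d % 5 = 3 % 5
        omega
      rw [h1] at h
      revert h
      decide

/-- (N3) -/
theorem stmtFin3 : StmtFin3.{u} := by
  intro m hm hodd hok hR K _ _ _ θ hθ
  have hsq : Squarefree (2 * m) := by
    rw [Nat.squarefree_mul (Nat.coprime_two_left.mpr hodd)]
    exact ⟨Nat.prime_two.squarefree, hm⟩
  apply finite_even hsq (dvd_mul_right 2 m) hok hR K (θ / 2)
  rw [div_pow, hθ]
  push_cast
  ring

end Vale.Agent.P017.R4.H927
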