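import Vale.Agent.P017.R4.Defs2
import Vale.Agent.P017.R3.H224.S2

/-!
# P017: dictionary for case III (`-8m`), 3 inert and 5 split (D5)
-/

open Finset

namespace Vale.Agent.P017.R4.H927

open Vale.Agent.P017.R3
open Vale.Agent.P017.R3.H224
open Vale.Agent.P017.R2.H985 (bit PF Pat sym Mat cork)
open Vale.Agent.P017.R3.H285 (L15 res split RR split_fst split_snd mem_L15 card_L15 bit3 bit5)

theorem AA3_diag (κ : ZMod 2) (n : ℕ) (u : Option (PF n) → ZMod 2) :
    AA3 κ n + Matrix.diagonal u = ext (AA n + Matrix.diagonal (fun q => u (some q)))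
      (fun q => bit 2 q) (fun q => bit 2 q + κ * mu n q) (u none) := by
  ext a b
  rw [Matrix.add_apply]
  match a, b with
  | none, none =>
    rw [Matrix.diagonal_apply_eq]
    exact zero_add _
  | none, some q =>
    rw [Matrix.diagonal_apply_ne _ (fun h => by cases h)]
    exact add_zero _
  | some q, none =>
    rw [Matrix.diagonal_apply_ne _ (fun h => by cases h)]
    exact add_zero _
  | some q, some q' =>
    show AA n q q' + _ = (AA n + Matrix.diagonal (fun q => u (some q))) q q'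
    rw [Matrix.add_apply]
    by_cases h : q = q'
    · subst h
      rw [Matrix.diagonal_apply_eq, Matrix.diagonal_apply_eq]
    · rw [Matrix.diagonal_apply_ne _ h,
        Matrix.diagonal_apply_ne _ (fun h' => h (Option.some.inj h'))]

theorem AA3s_eq (κ : ZMod 2) (n : ℕ) (u : Option (PF n) → ZMod 2) :
    AA3s κ n u = ext (ext (AA n + Matrix.diagonal (fun q => u (some q)))
      (fun q => bit 2 q) (fun q => bit 2 q + κ * mu n q) (u none))
      (extv (fun q : PF n => bit ((q : ℕ) : ℤ) 5) 1)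
      (extv (fun q : PF n => bit ((q : ℕ) : ℤ) 3) 1) 1 := by
  unfold AA3s
  rw [AA3_diag]

theorem extv_eta {V : Type} (u : Option V → ZMod 2) : extv (fun q => u (some q)) (u none) = u := by
  funext a
  cases a <;> rfl

/-! ### The new prime -/

section new

variable {n p : ℕ} (hn : n ≠ 0) (hp : p.Prime) (hpn : ¬ p ∣ n)

noncomputable def eqv3 : Option (Option (Option (PF n))) ≃ Option (Option (PF (n * p))) where
  toFun a := match a with
    | none => some (some (eqv hn hp hpn none))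
    | some none => none
    | some (some none) => some none
    | some (some (some q)) => some (some (eqv hn hp hpn (some q)))
  invFun b := match b with
    | none => some none
    | some none => some (some none)
    | some (some r) => match (eqv hn hp hpn).symm r with
      | none => none
      | some q => some (some (some q))
  left_inv a := by
    match a with
    | none => simp only [Equiv.symm_apply_apply]
    | some none => rfl
    | some (some none) => rfl
    | some (some (some q)) => simp only [Equiv.symm_apply_apply]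
  right_inv b := by
    match b with
    | none => rfl
    | some none => rfl
    | some (some r) =>
      obtain ⟨a, rfl⟩ := (eqv hn hp hpn).surjective r
      match a with
      | none => simp only [Equiv.symm_apply_apply]
      | some q => simp only [Equiv.symm_apply_apply]

/-- restriction of a diagonal to `n` -/
noncomputable def rstr (u : Option (PF (n * p)) → ZMod 2) : Option (PF n) → ZMod 2 :=
  extv (fun q => u (some (eqv hn hp hpn (some q)))) (u none)

theorem mat_ext3 (κ : ZMod 2) (hodd : Odd n) (hp2 : p ≠ 2) (u : Option (PF (n * p)) → ZMod 2) :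
    (AA3s κ (n * p) u).submatrix (eqv3 hn hp hpn) (eqv3 hn hp hpn) =
      ext (AA3s κ n (rstr hn hp hpn u))
        (extv (extv (sym n p) (bit 2 p + κ * eps p)) (bit (p : ℤ) 3))
        (extv (extv (sym n p) (bit 2 p + κ * eps p)) (bit (p : ℤ) 3) +
          (eps p • extv (extv (mu n) κ) 0 +
          (bit (p : ℤ) 5 + bit (p : ℤ) 3) • extv 0 1)) (u (some (eqv hn hp hpn none))) := by
  have h0 := mat_ext hodd hn hp hp2 hpn (fun q => u (some q))
  have h1 : ∀ a b : Option (PF n), (AA (n * p) + Matrix.diagonal (fun q => u (some q)))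
      (eqv hn hp hpn a) (eqv hn hp hpn b) =
        ext (AA n + Matrix.diagonal (fun q => u (some (eqv hn hp hpn (some q)))))
        (sym n p) (sym n p + eps p • mu n) (u (some (eqv hn hp hpn none))) a b := by
    intro a b
    rw [← h0]
    rfl
  rw [AA3s_eq, AA3s_eq]
  ext a b
  match a, b with
  | none, none => exact h1 none none
  | none, some none =>
    show bit (p : ℤ) 5 = bit (p : ℤ) 3 + (eps p * 0 + (bit (p : ℤ) 5 + bit (p : ℤ) 3) * 1)
    rw [mul_zero, zero_add, mul_one, add_comm (bit (p : ℤ) 5), ← add_assoc,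
      CharTwo.add_self_eq_zero, zero_add]
  | none, some (some none) =>
    show bit 2 p = bit 2 p + κ * eps p + (eps p * κ + (bit (p : ℤ) 5 + bit (p : ℤ) 3) * 0)
    rw [mul_zero, add_zero, mul_comm κ, add_assoc, CharTwo.add_self_eq_zero, add_zero]
  | none, some (some (some q)) =>
    refine (h1 none (some q)).trans ?_
    show sym n p q + eps p * mu n q = sym n p q + (eps p * mu n q +
      (bit (p : ℤ) 5 + bit (p : ℤ) 3) * 0)
    rw [mul_zero, add_zero]
  | some none, none => rfl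
  | some none, some none => rfl
  | some none, some (some none) => rfl
  | some none, some (some (some q)) => rfl
  | some (some none), none => rfl
  | some (some none), some none => rfl
  | some (some none), some (some none) => rfl
  | some (some none), some (some (some q)) => rfl
  | some (some (some q)), none => exact h1 (some q) none
  | some (some (some q)), some none => rfl
  | some (some (some q)), some (some none) => rfl
  | some (some (some q)), some (some (some q')) => exact h1 (some q) (some q')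

theorem mu_ext3 (κ : ZMod 2) : extv (extv (mu (n * p)) κ) 0 ∘ (eqv3 hn hp hpn) =
    extv (extv (extv (mu n) κ) 0) (eps p) := by
  funext a
  match a with
  | none => rfl
  | some none => rfl
  | some (some none) => rfl
  | some (some (some q)) => rfl

theorem st_ext3 : (extv 0 1 : Option (Option (PF (n * p))) → ZMod 2) ∘ (eqv3 hn hp hpn) =
    extv (extv 0 1) 0 := by
  funext a
  match a with
  | none => rfl
  | some none => rfl
  | some (some none) => rfl
  | some (some (some q)) => rfl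

theorem sum_new3 (F : (Option (PF n) → ZMod 2) → ZMod 2 → ℝ) :
    ∑ u : Option (PF (n * p)) → ZMod 2, F (rstr hn hp hpn u) (u (some (eqv hn hp hpn none))) =
      ∑ v : Option (PF n) → ZMod 2, ∑ w : ZMod 2, F v w := by
  have h1 := sum_option (V := PF (n * p)) (fun (u : PF (n * p) → ZMod 2) (x : ZMod 2) =>
    F (extv (fun q => u (eqv hn hp hpn (some q))) x) (u (eqv hn hp hpn none)))
  refine Eq.trans h1 ?_
  have h2 := sum_new hn hp hpn (fun (v : PF n → ZMod 2) (w : ZMod 2) =>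
    ∑ x : ZMod 2, F (extv v x) w)
  refine Eq.trans h2 ?_
  have h3 := sum_option (V := PF n) (fun (v : PF n → ZMod 2) (x : ZMod 2) =>
    ∑ w : ZMod 2, F (extv v x) w)
  simp only [extv_eta] at h3
  rw [h3]
  exact sum_congr rfl fun v _ => sum_comm

end new

/-- the summand of the model -/
noncomputable def TT (κ : ZMod 2) (ε : List (ZMod 2)) (e n : ℕ)
    (φ : Option (Option (PF n)) → ZMod 2) (χ : ZMod 2) (u : Option (PF n) → ZMod 2)
    (w : ZMod 2) : ℝ :=
  prob2 ε (Option (Option (Option (PF n))))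
    (ext (AA3s κ n u) φ (φ + (eps e • extv (extv (mu n) κ) 0 + χ • extv 0 1)) w)
    (extv (extv (extv (mu n) κ) 0) (eps e)) (extv (extv 0 1) 0)

noncomputable def T3 (κ : ZMod 2) (ε : List (ZMod 2)) (e n : ℕ)
    (φ : Option (Option (PF n)) → ZMod 2) (χ : ZMod 2) : ℝ :=
  avg (fun u : Option (PF n) → ZMod 2 => (∑ w : ZMod 2, TT κ ε e n φ χ u w) / 2)

noncomputable def G3 (κ : ZMod 2) (ε : List (ZMod 2)) (e n : ℕ) (φ : Pat n) (b3 b5 ρ : ZMod 2) :
    ℝ := T3 κ ε e n (extv (extv φ (ρ + κ * eps e)) b3) (b5 + b3)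

theorem T3_nonneg (κ : ZMod 2) (ε : List (ZMod 2)) (e n : ℕ)
    (φ : Option (Option (PF n)) → ZMod 2) (χ : ZMod 2) : 0 ≤ T3 κ ε e n φ χ := by
  unfold T3 avg
  exact div_nonneg (sum_nonneg fun u _ => div_nonneg (sum_nonneg fun w _ =>
    (prob2_mem _ _ _ _ _).1) (by norm_num)) (by positivity)

theorem FF3s_mul (κ : ZMod 2) {n p : ℕ} (hodd : Odd n) (hn : n ≠ 0) (hp : p.Prime) (hp5 : 5 < p)
    (hpn : ¬ p ∣ n) (h3 : ¬ 3 ∣ n) (h5 : ¬ 5 ∣ n) (ε : List (ZMod 2)) {e : ℕ}
    (he : eps p = eps e) :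
    FF3s κ ε (n * p) = G3 κ ε e n (sym n p) (bit (p : ℤ) 3) (bit (p : ℤ) 5) (bit 2 p) := by
  have h3' : ¬ 3 ∣ n * p := not_dvd_mul Nat.prime_three h3 hp (by omega)
  have h5' : ¬ 5 ∣ n * p := not_dvd_mul Nat.prime_five h5 hp (by omega)
  unfold FF3s G3 T3 avg
  rw [if_neg (by tauto)]
  have h1 : ∀ u : Option (PF (n * p)) → ZMod 2,
      prob2 ε (Option (Option (PF (n * p)))) (AA3s κ (n * p) u) (extv (extv (mu (n * p)) κ) 0)
        (extv 0 1) =
      TT κ ε e n (extv (extv (sym n p) (bit 2 p + κ * eps e)) (bit (p : ℤ) 3))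
        (bit (p : ℤ) 5 + bit (p : ℤ) 3) (rstr hn hp hpn u) (u (some (eqv hn hp hpn none))) := by
    intro u
    unfold TT
    rw [← prob2_equiv ε _ _ (eqv3 hn hp hpn), mat_ext3 hn hp hpn κ hodd (by omega), mu_ext3,
      st_ext3, he]
  have h2 : Fintype.card (Option (PF (n * p))) = Fintype.card (Option (PF n)) + 1 := by
    rw [Fintype.card_option, Fintype.card_option, ← Fintype.card_congr (eqv hn hp hpn),
      Fintype.card_option]
  have h6 := sum_new3 hn hp hpn (TT κ ε e n
    (extv (extv (sym n p) (bit 2 p + κ * eps e)) (bit (p : ℤ) 3))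
        (bit (p : ℤ) 5 + bit (p : ℤ) 3))
  rw [sum_congr rfl fun u _ => h1 u, h2, h6, pow_succ, ← sum_div]
  field_simp

theorem sum_ext3 {n : ℕ} (c : ZMod 2) (T : (Option (Option (PF n)) → ZMod 2) → ZMod 2 → ℝ) :
    ∑ φ : Pat n, ∑ b3 : ZMod 2, ∑ b5 : ZMod 2, ∑ ρ : ZMod 2,
      T (extv (extv φ (ρ + c)) b3) (b5 + b3) =
    ∑ φ : Option (Option (PF n)) → ZMod 2, ∑ χ : ZMod 2, T φ χ := by
  have h1 : ∀ (φ : Pat n) (b3 : ZMod 2), ∑ b5 : ZMod 2, ∑ ρ : ZMod 2,
      T (extv (extv φ (ρ + c)) b3) (b5 + b3) =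
      ∑ χ : ZMod 2, ∑ x : ZMod 2, T (extv (extv φ x) b3) χ := fun φ b3 =>
    Fintype.sum_equiv (Equiv.addRight b3) _ _ fun b5 =>
      Fintype.sum_equiv (Equiv.addRight c) _ _ fun ρ => rfl
  have h2 : ∀ (φ : Pat n), ∑ b3 : ZMod 2, ∑ χ : ZMod 2, ∑ x : ZMod 2,
      T (extv (extv φ x) b3) χ = ∑ x : ZMod 2, ∑ b3 : ZMod 2, ∑ χ : ZMod 2,
      T (extv (extv φ x) b3) χ := fun φ => by
    have : ∀ b3 : ZMod 2, ∑ χ : ZMod 2, ∑ x : ZMod 2, T (extv (extv φ x) b3) χ =
        ∑ x : ZMod 2, ∑ χ : ZMod 2, T (extv (extv φ x) b3) χ := fun b3 => sum_comm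
    rw [sum_congr rfl fun b3 _ => this b3]
    exact sum_comm
  rw [sum_congr rfl fun φ _ => sum_congr rfl fun b3 _ => h1 φ b3,
    sum_congr rfl fun φ _ => h2 φ]
  have h3 := sum_option (V := PF n) (fun (φ : PF n → ZMod 2) (x : ZMod 2) =>
    ∑ b3 : ZMod 2, ∑ χ : ZMod 2, T (extv (extv φ x) b3) χ)
  have h4 := sum_option (V := Option (PF n)) (fun (φ : Option (PF n) → ZMod 2) (b3 : ZMod 2) =>
    ∑ χ : ZMod 2, T (extv φ b3) χ)
  simp only [extv_eta] at h3 h4
  rw [← h3, ← h4]

theorem G3_sum (κ : ZMod 2) {n : ℕ} (h3 : ¬ 3 ∣ n) (h5 : ¬ 5 ∣ n) (ε : List (ZMod 2)) (e : ℕ) :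
    ∑ φ : Pat n, ∑ b3 : ZMod 2, ∑ b5 : ZMod 2, ∑ ρ : ZMod 2, G3 κ ε e n φ b3 b5 ρ =
      2 ^ (n.primeFactors.card + 3) * FF3s κ (eps e :: ε) n := by
  unfold G3
  rw [sum_ext3 (κ * eps e) (T3 κ ε e n)]
  unfold T3 FF3s avg
  rw [if_neg (by tauto)]
  have h1 : ∀ u : Option (PF n) → ZMod 2,
      ∑ φ : Option (Option (PF n)) → ZMod 2, ∑ χ : ZMod 2,
        (∑ w : ZMod 2, TT κ ε e n φ χ u w) / 2 =
      2 ^ (n.primeFactors.card + 3) * prob2 (eps e :: ε) (Option (Option (PF n))) (AA3s κ n u)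
        (extv (extv (mu n) κ) 0) (extv 0 1) := by
    intro u
    rw [prob2, Fintype.card_option, Fintype.card_option, card_PF]
    have h2 : ∀ φ : Option (Option (PF n)) → ZMod 2, ∑ χ : ZMod 2,
        (∑ w : ZMod 2, TT κ ε e n φ χ u w) / 2 =
        (∑ w : ZMod 2, ∑ χ : ZMod 2, TT κ ε e n φ χ u w) / 2 := by
      intro φ
      rw [← sum_div, sum_comm]
    rw [sum_congr rfl fun φ _ => h2 φ, ← sum_div]
    rw [show n.primeFactors.card + 1 + 1 + 2 = n.primeFactors.card + 3 + 1 by ring,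
      pow_succ _ (_ + 3)]
    unfold TT
    field_simp
  have h6 : ∑ φ : Option (Option (PF n)) → ZMod 2, ∑ χ : ZMod 2, ∑ u : Option (PF n) → ZMod 2,
      (∑ w : ZMod 2, TT κ ε e n φ χ u w) / 2 =
      2 ^ (n.primeFactors.card + 3) * ∑ u : Option (PF n) → ZMod 2,
        prob2 (eps e :: ε) (Option (Option (PF n))) (AA3s κ n u)
        (extv (extv (mu n) κ) 0) (extv 0 1) := by
    rw [mul_sum, ← sum_congr rfl fun u _ => h1 u]
    rw [sum_comm (s := (univ : Finset (Option (PF n) → ZMod 2)))]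
    exact sum_congr rfl fun φ _ => sum_comm
  rw [← mul_div_assoc, ← h6]
  simp only [sum_div]

theorem FF3s_mem (κ : ZMod 2) (ε : List (ZMod 2)) (n : ℕ) :
    0 ≤ FF3s κ ε n ∧ FF3s κ ε n ≤ 1 := by
  unfold FF3s
  split_ifs
  · norm_num
  · exact avg_mem fun u => prob2_mem _ _ _ _ _

theorem FF3s_zero (κ : ZMod 2) {n : ℕ} (h : 3 ∣ n ∨ 5 ∣ n) (ε : List (ZMod 2)) :
    FF3s κ ε n = 0 := by
  unfold FF3s
  rw [if_pos h]

theorem MM3s_eq (κ : ZMod 2) (n : ℕ) (w : Pat n) (ρ : ZMod 2) :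
    MM3s κ n w ρ = AA3s κ n (extv (w + ((fun q : PF n => bit 2 (q : ℕ)) +
      fun q : PF n => ∑ r ∈ univ.erase q, bit ((r : ℕ) : ℤ) (q : ℕ)))
        (ρ + ∑ q : PF n, bit 2 (q : ℕ))) := by
  rw [AA3s_eq]
  unfold MM3s MM3
  rw [Mat_eq]
  have h1 : ((fun q : PF n => w q + bit 2 (q : ℕ)) + fun q : PF n => ∑ r ∈ univ.erase q,
      bit ((r : ℕ) : ℤ) (q : ℕ)) = w + ((fun q : PF n => bit 2 (q : ℕ)) +
      fun q : PF n => ∑ r ∈ univ.erase q, bit ((r : ℕ) : ℤ) (q : ℕ)) := by
    funext q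
    simp only [Pi.add_apply]
    ring
  rw [h1]
  rfl

theorem sum_fin3 (κ : ZMod 2) {n : ℕ} (h3 : ¬ 3 ∣ n) (h5 : ¬ 5 ∣ n) :
    ∑ w : Pat n, ∑ ρ : ZMod 2, (if ck (MM3s κ n w ρ) = 0 then (1 : ℝ) else 0) =
      2 ^ (n.primeFactors.card + 1) * FF3s κ [] n := by
  have h1 : ∑ w : Pat n, ∑ ρ : ZMod 2, (if ck (MM3s κ n w ρ) = 0 then (1 : ℝ) else 0) =
      ∑ v : Pat n, ∑ x : ZMod 2, (if ck (AA3s κ n (extv v x)) = 0 then (1 : ℝ) else 0) := by
    refine Fintype.sum_equiv
      (Equiv.addRight ((fun q : PF n => bit 2 (q : ℕ)) +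
      fun q : PF n => ∑ r ∈ univ.erase q, bit ((r : ℕ) : ℤ) (q : ℕ))) _ _ fun w => ?_
    refine Fintype.sum_equiv (Equiv.addRight (∑ q : PF n, bit 2 (q : ℕ))) _ _ fun ρ => ?_
    rw [MM3s_eq]
    rfl
  have h2 := sum_option (V := PF n) (fun (v : PF n → ZMod 2) (x : ZMod 2) =>
    (if ck (AA3s κ n (extv v x)) = 0 then (1 : ℝ) else 0))
  simp only [extv_eta] at h2
  rw [h1, ← h2]
  unfold FF3s avg
  rw [if_neg (by tauto)]
  simp only [prob2, Fintype.card_option, card_PF]
  field_simp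

theorem ok2_iff3 {n p : ℕ} (h3 : ¬ 3 ∣ n) (h5 : ¬ 5 ∣ n) (hp : p.Prime) (hp5 : 5 < p) :
    OK2 (2 * (n * p)) ↔ bit (p : ℤ) 3 = 1 + bit (n : ℤ) 3 ∧ bit (p : ℤ) 5 = 1 + bit (n : ℤ) 5 := by
  have h3p : ¬ 3 ∣ p := fun h => by
    have := (Nat.prime_dvd_prime_iff_eq Nat.prime_three hp).1 h; omega
  have h5p : ¬ 5 ∣ p := fun h => by
    have := (Nat.prime_dvd_prime_iff_eq Nat.prime_five hp).1 h; omega
  unfold OK2
  refine and_congr ?_ ?_
  · rw [bit3 p h3p, bit3 n h3]
    have h1 : n % 3 = 1 ∨ n % 3 = 2 := by omega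
    have h2 : p % 3 = 1 ∨ p % 3 = 2 := by omega
    rw [Nat.mul_mod, Nat.mul_mod n p]
    rcases h1 with h1 | h1 <;> rcases h2 with h2 | h2 <;> rw [h1, h2] <;> decide
  · rw [bit5 p h5p, bit5 n h5]
    have h1 : n % 5 = 1 ∨ n % 5 = 2 ∨ n % 5 = 3 ∨ n % 5 = 4 := by omega
    have h2 : p % 5 = 1 ∨ p % 5 = 2 ∨ p % 5 = 3 ∨ p % 5 = 4 := by omega
    rw [Nat.mul_mod, Nat.mul_mod n p]
    rcases h1 with h1 | h1 | h1 | h1 <;> rcases h2 with h2 | h2 | h2 | h2 <;>
      rw [h1, h2] <;> decide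

theorem hyp3 (hE1 : StmtE1) (hE2 : StmtE2) (κ : ZMod 2) : Hyp8 (S3s κ) := by
  classical
  refine ⟨FF3s_mem κ, fun n p hp h5 => rfl, ?_, ?_⟩
  · intro n hn ho ε e he
    by_cases h35 : 3 ∣ n ∨ 5 ∣ n
    · refine ⟨fun _ _ => 0, fun _ _ => le_rfl, fun p hp _ hpn hpe => ?_, ?_⟩
      · exact FF3s_zero κ (h35.imp (fun h => h.mul_right p) (fun h => h.mul_right p)) ε
      · show ∑ φ : Pat (L15 n), ∑ ρ : ZMod 2, (0 : ℝ) =
          2 * Fintype.card (Pat (L15 n)) * FF3s κ (eps e :: ε) n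
        rw [FF3s_zero κ h35, mul_zero, sum_const_zero, sum_const_zero]
    · push Not at h35
      obtain ⟨h3, h5⟩ := h35
      refine ⟨fun φ ρ => G3 κ ε e n (res hn.ne_zero φ) (φ (p3 hn.ne_zero)) (φ (p5 hn.ne_zero)) ρ,
        fun φ ρ => T3_nonneg _ _ _ _ _ _, fun p hp hp5 hpn hpe => ?_, ?_⟩
      · refine FF3s_mul κ ho hn.ne_zero hp hp5 hpn h3 h5 ε ?_
        unfold eps
        rcases he with rfl | rfl
        · rw [hpe]
        · rw [hpe]
      · show ∑ φ : Pat (L15 n), ∑ ρ : ZMod 2, _ =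
          2 * (Fintype.card (Pat (L15 n)) : ℝ) * FF3s κ (eps e :: ε) n
        rw [sum_split hn.ne_zero h3 h5 (fun w b3 b5 => ∑ ρ : ZMod 2, G3 κ ε e n w b3 b5 ρ),
          G3_sum κ h3 h5, card_L15' hn.ne_zero h3 h5]
        ring
  · intro n hn ho e he
    have hn0 := hn.ne_zero
    by_cases h35 : 3 ∣ n ∨ 5 ∣ n
    · refine ⟨∅, ∅, fun p _ _ _ _ h => absurd h (notMem_empty _), fun p _ _ _ _ h => ?_, ?_, ?_⟩
      · exfalso
        obtain ⟨h1, h2⟩ := h
        rcases h35 with h | h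
        · have := (h.mul_right p).mul_left 2
          omega
        · have := (h.mul_right p).mul_left 2
          omega
      · show FF3s κ [] n * _ ≤ _
        rw [FF3s_zero κ h35, zero_mul, card_empty, Nat.cast_zero]
      · rw [card_empty, Nat.cast_zero]
        positivity
    · push Not at h35
      obtain ⟨h3, h5⟩ := h35
      have hcard : ∀ F : Pat n → ℝ, ∑ φ : Pat (L15 n),
          (if φ (p3 hn0) = 1 + bit (n : ℤ) 3 ∧ φ (p5 hn0) = 1 + bit (n : ℤ) 5
            then F (res hn0 φ) else 0) = ∑ w : Pat n, F w := by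
        intro F
        rw [sum_split hn0 h3 h5 (fun w b3 b5 =>
          if b3 = 1 + bit (n : ℤ) 3 ∧ b5 = 1 + bit (n : ℤ) 5 then F w else 0)]
        refine sum_congr rfl fun w _ => ?_
        simp only [ite_and]
        rw [sum_eq_single (1 + bit (n : ℤ) 3)]
        · simp only [if_true]
          rw [sum_ite_eq' univ, if_pos (mem_univ _)]
        · intro b _ hb
          simp [hb]
        · intro h; exact absurd (mem_univ _) h
      refine ⟨univ.filter (fun z : Pat (L15 n) × ZMod 2 =>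
          (z.1 (p3 hn0) = 1 + bit (n : ℤ) 3 ∧ z.1 (p5 hn0) = 1 + bit (n : ℤ) 5) ∧
            ck (MM3s κ n (res hn0 z.1) z.2) = 0),
        univ.filter (fun z : Pat (L15 n) × ZMod 2 =>
          z.1 (p3 hn0) = 1 + bit (n : ℤ) 3 ∧ z.1 (p5 hn0) = 1 + bit (n : ℤ) 5), ?_, ?_, ?_, ?_⟩
      · intro p hp hp5 hpn hpe hA
        rw [mem_filter] at hA
        have h1 : OK2 (2 * (n * p)) := (ok2_iff3 h3 h5 hp hp5).2 hA.2.1
        exact ⟨h1, fun h4 => ⟨hE1 κ n hn ho h3 h5 p hp hp5 hpn h1 h4 hA.2.2,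
          hE2 κ n hn ho h3 h5 p hp hp5 hpn h1 h4 hA.2.2⟩⟩
      · intro p hp hp5 hpn hpe hok
        rw [mem_filter]
        exact ⟨mem_univ _, (ok2_iff3 h3 h5 hp hp5).1 hok⟩
      · have h1 : ((univ.filter (fun z : Pat (L15 n) × ZMod 2 =>
          (z.1 (p3 hn0) = 1 + bit (n : ℤ) 3 ∧ z.1 (p5 hn0) = 1 + bit (n : ℤ) 5) ∧
            ck (MM3s κ n (res hn0 z.1) z.2) = 0)).card : ℝ) =
            2 ^ (n.primeFactors.card + 1) * FF3s κ [] n := by
          rw [← sum_fin3 κ h3 h5, ← hcard (fun w => ∑ ρ : ZMod 2,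
            (if ck (MM3s κ n w ρ) = 0 then (1 : ℝ) else 0)), card_filter]
          push_cast
          rw [Fintype.sum_prod_type]
          refine sum_congr rfl fun φ _ => ?_
          split_ifs with hc
          · refine sum_congr rfl fun ρ _ => ?_
            simp only [hc, and_self, true_and]
          · refine sum_eq_zero fun ρ _ => ?_
            rw [if_neg (fun h => hc h.1)]
        rw [h1]
        show FF3s κ [] n * (2 * (Fintype.card (Pat (L15 n)) : ℝ) / 2 ^ 2) ≤ _
        rw [card_L15' hn0 h3 h5]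
        apply le_of_eq
        ring
      · have h1 : ((univ.filter (fun z : Pat (L15 n) × ZMod 2 =>
          z.1 (p3 hn0) = 1 + bit (n : ℤ) 3 ∧ z.1 (p5 hn0) = 1 + bit (n : ℤ) 5)).card : ℝ) =
            2 ^ (n.primeFactors.card + 1) := by
          have h2 := hcard (fun _ => (2 : ℝ))
          rw [card_filter]
          push_cast
          rw [Fintype.sum_prod_type]
          have h4 : ∀ φ : Pat (L15 n), ∑ ρ : ZMod 2,
              (if φ (p3 hn0) = 1 + bit (n : ℤ) 3 ∧ φ (p5 hn0) = 1 + bit (n : ℤ) 5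
                then (1 : ℝ) else 0) =
              (if φ (p3 hn0) = 1 + bit (n : ℤ) 3 ∧ φ (p5 hn0) = 1 + bit (n : ℤ) 5
                then (2 : ℝ) else 0) := by
            intro φ
            rw [sum_const, card_univ, ZMod.card]
            split_ifs <;> simp
          rw [sum_congr rfl fun φ _ => h4 φ, h2, sum_const, card_univ, Fintype.card_fun,
            ZMod.card, Fintype.card_coe, nsmul_eq_mul]
          push_cast
          ring
        rw [h1]
        show _ ≤ 2 * (Fintype.card (Pat (L15 n)) : ℝ) / 2 ^ 2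
        rw [card_L15' hn0 h3 h5]
        apply le_of_eq
        ring

theorem rec2_AA3s (κ : ZMod 2) (n : ℕ) (hodd : Odd n) (u : Option (PF n) → ZMod 2) :
    Rec2 (AA3s κ n u) (extv (extv (mu n) κ) 0) (extv 0 1) := by
  rw [AA3s_eq]
  refine ⟨?_, ?_, ?_⟩
  · intro a b hab ha hb
    match a, b with
    | none, _ => exact absurd ha one_ne_zero
    | some _, none => exact absurd hb one_ne_zero
    | some none, some none => exact absurd rfl hab
    | some none, some (some q) =>
      show bit 2 (q : ℕ) + κ * mu n q + bit 2 (q : ℕ) = κ * mu n q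
      rw [add_comm, ← add_assoc, CharTwo.add_self_eq_zero, zero_add]
    | some (some q), some none =>
      show bit 2 (q : ℕ) + (bit 2 (q : ℕ) + κ * mu n q) = mu n q * κ
      rw [← add_assoc, CharTwo.add_self_eq_zero, zero_add, mul_comm]
    | some (some q), some (some q') =>
      have hne : q ≠ q' := fun h => hab (by rw [h])
      have h := rec_AA n hodd q q' hne
      show (AA n + Matrix.diagonal (fun q => u (some q))) q q' +
        (AA n + Matrix.diagonal (fun q => u (some q))) q' q = mu n q * mu n q'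
      rw [Matrix.add_apply, Matrix.add_apply, Matrix.diagonal_apply_ne _ hne,
        Matrix.diagonal_apply_ne _ hne.symm, add_zero, add_zero]
      exact h
  · intro a b ha hb
    match a, b with
    | none, none => rfl
    | none, some _ => exact absurd hb zero_ne_one
    | some _, _ => exact absurd ha zero_ne_one
  · intro a ha
    match a with
    | none => rfl
    | some _ => exact absurd ha zero_ne_one

theorem rm3 (hRM : StmtRMg) (κ : ZMod 2) : (S3s κ).StmtRM := by
  intro η B hη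
  obtain ⟨h, k, hk⟩ := hRM η (4 * B) hη
  refine ⟨h, k, fun ε m d hm ho hmd hok hc hB => ?_⟩
  obtain ⟨hok3, hok5⟩ := hok
  have h3 : ¬ 3 ∣ m := fun h => by
    have := (h.trans hmd).mul_left 2
    omega
  have h5 : ¬ 5 ∣ m := fun h => by
    have := (h.trans hmd).mul_left 2
    omega
  have h1 := hk ε (Option (Option (PF m))) (Option (PF m) → ZMod 2) (fun u => AA3s κ m u)
    (extv (extv (mu m) κ) 0) (extv 0 1) (fun u => rec2_AA3s κ m ho u) hc ?_
  · show η ≤ FF3s κ ε m
    unfold FF3s avg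
    rw [if_neg (by tauto)]
    rw [Fintype.card_fun, ZMod.card] at h1
    push_cast at h1
    exact h1
  · have h2 : ∑ u : Option (PF m) → ZMod 2, (2 : ℝ) ^ ck (AA3s κ m u) ≤
        8 * ∑ u : PF m → ZMod 2, (2 : ℝ) ^ ck (AA m + Matrix.diagonal u) := by
      have h6 : ∀ u : Option (PF m) → ZMod 2, (2 : ℝ) ^ ck (AA3s κ m u) ≤
          4 * 2 ^ ck (AA m + Matrix.diagonal (fun q => u (some q))) := by
        intro u
        have h4 : ck (AA3s κ m u) ≤ ck (AA m + Matrix.diagonal (fun q => u (some q))) + 1 + 1 := by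
          rw [AA3s_eq]
          exact (ck_ext_le _ _ _ _).trans (Nat.add_le_add_right (ck_ext_le _ _ _ _) 1)
        calc (2 : ℝ) ^ ck (AA3s κ m u) ≤
              2 ^ (ck (AA m + Matrix.diagonal (fun q => u (some q))) + 1 + 1) :=
              pow_le_pow_right₀ (by norm_num) h4
          _ = _ := by rw [pow_succ, pow_succ]; ring
      refine (sum_le_sum fun u _ => h6 u).trans ?_
      have h7 := sum_option (V := PF m) (fun (v : PF m → ZMod 2) (_ : ZMod 2) =>
        4 * (2 : ℝ) ^ ck (AA m + Matrix.diagonal v))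
      rw [h7, mul_sum]
      refine sum_le_sum fun v _ => ?_
      rw [sum_const, card_univ, ZMod.card]
      simp only [nsmul_eq_mul]
      push_cast
      linarith
    have h5 : (∑ u : PF m → ZMod 2, (2 : ℝ) ^ ck (AA m + Matrix.diagonal u)) /
        2 ^ Fintype.card (PF m) ≤ B := hB
    rw [Fintype.card_fun, ZMod.card, Fintype.card_option]
    push_cast
    rw [div_le_iff₀ (by positivity)] at h5 ⊢
    rw [pow_succ]
    linarith

/-- (D5) -/
theorem stmtS3s : StmtS3s := fun hE1 hE2 hRM κ => ⟨hyp3 hE1 hE2 κ, rm3 hRM κ⟩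

end Vale.Agent.P017.R4.H927
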